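import Claimed.Agent.R246.AA.Defs

/-! Row 246, Artin approximation: small general lemmas. -/

set_option autoImplicit false

namespace Claimed.Agent.R246.AA

open Polynomial

/-- congruent points give congruent values -/
theorem aeval_sub_mem {O₀ O σ : Type} [CommRing O₀] [CommRing O] [Algebra O₀ O] (I : Ideal O)
    (x y : σ → O) (h : ∀ j, x j - y j ∈ I) (g : MvPolynomial σ O₀) :
    MvPolynomial.aeval x g - MvPolynomial.aeval y g ∈ I := by
  rw [← Ideal.Quotient.eq]
  have h1 : ∀ w : σ → O, Ideal.Quotient.mk I (MvPolynomial.aeval w g) =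
      MvPolynomial.aeval (fun j => Ideal.Quotient.mk I (w j)) g := by
    intro w
    have := MvPolynomial.comp_aeval_apply (R := O₀) w (Ideal.Quotient.mkₐ O₀ I) g
    simpa using this
  rw [h1, h1]
  have : (fun j => Ideal.Quotient.mk I (x j)) = fun j => Ideal.Quotient.mk I (y j) := by
    funext j
    exact (Ideal.Quotient.eq).2 (h j)
  rw [this]

/-- values of polynomials at algebraic points are algebraic -/
theorem isAlgebraic_aeval {O₀ O σ : Type} [CommRing O₀] [IsDomain O₀] [CommRing O] [Algebra O₀ O]
    (u : σ → O) (hu : ∀ i, IsAlgebraic O₀ (u i)) (q : MvPolynomial σ O₀) :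
    IsAlgebraic O₀ (MvPolynomial.aeval u q) := by
  induction q using MvPolynomial.induction_on with
  | C a => simpa using isAlgebraic_algebraMap (A := O) a
  | add p q hp hq => simpa using hp.add hq
  | mul_X p i hp => simpa using hp.mul (hu i)

/-- a root of a nonzero polynomial with algebraic coefficients is algebraic -/
theorem isAlgebraic_of_root {O₀ O : Type} [CommRing O₀] [IsDomain O₀] [CommRing O] [IsDomain O]
    [Algebra O₀ O] (p : O[X]) (hp : p ≠ 0) (hc : ∀ i, IsAlgebraic O₀ (p.coeff i)) (θ : O)
    (h : p.eval θ = 0) : IsAlgebraic O₀ θ := by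
  let S := Subalgebra.algebraicClosure O₀ O
  have hl : p ∈ Polynomial.lifts (algebraMap S O) := by
    rw [Polynomial.lifts_iff_coeff_lifts]
    intro i
    exact ⟨⟨p.coeff i, hc i⟩, rfl⟩
  obtain ⟨q, hq⟩ := hl
  have hq0 : q ≠ 0 := by
    rintro rfl
    exact hp (by simpa using hq.symm)
  have h2 : IsAlgebraic S θ := by
    refine ⟨q, hq0, ?_⟩
    rw [Polynomial.aeval_def, ← Polynomial.eval_map]
    have : q.map (algebraMap S O) = p := hq
    rw [this, h]
  exact h2.restrictScalars O₀

end Claimed.Agent.R246.AA
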