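import Mathlib

/-!
# Row 246: Artin approximation (polynomial equations over `k[x₁..xₙ]`, char 0), definitions

`AAProp O₀ O m`  : every solution in `O` of a finite polynomial system over `O₀` is an `m`-adic limit of
                   solutions that are algebraic over `O₀` (plain Mathlib `IsAlgebraic`).
`HProp O₀ O m`   : every solution `zh` with `δ(zh) ≠ 0` is an `m`-adic limit of algebraic tuples `z` that solve
                   the system modulo `δ(z)^2 * m^N`  (input of the Hensel-Tougeron step).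
`HRegProp R₀ R`  : the same for `O₀ = R₀[X]`, `O = R⟦X⟧`, only for those `zh` for which `δ(zh)` is regular in `X`.
-/

set_option autoImplicit false

namespace Claimed.Agent.R246.AA

open Polynomial PowerSeries

/-- one instance of the approximation statement -/
def AAInst (O₀ O : Type) [CommRing O₀] [CommRing O] [Algebra O₀ O] (m : Ideal O)
    (σ : Type) (F : Set (MvPolynomial σ O₀)) (yh : σ → O) (N : ℕ) : Prop :=
  ∃ y : σ → O, (∀ i, IsAlgebraic O₀ (y i)) ∧ (∀ f ∈ F, MvPolynomial.aeval y f = 0) ∧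
    ∀ i, y i - yh i ∈ m ^ N

/-- Artin approximation property of the pair `O₀ → O`. -/
def AAProp (O₀ O : Type) [CommRing O₀] [CommRing O] [Algebra O₀ O] (m : Ideal O) : Prop :=
  ∀ (σ : Type) [Finite σ] (F : Set (MvPolynomial σ O₀)), F.Finite → ∀ yh : σ → O,
    (∀ f ∈ F, MvPolynomial.aeval yh f = 0) → ∀ N : ℕ, AAInst O₀ O m σ F yh N

/-- one instance of the "approximate solution modulo `δ²`" statement -/
def HInst (O₀ O : Type) [CommRing O₀] [CommRing O] [Algebra O₀ O] (m : Ideal O)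
    (σ : Type) (G : Set (MvPolynomial σ O₀)) (δ : MvPolynomial σ O₀) (zh : σ → O) (N : ℕ) : Prop :=
  ∃ z : σ → O, (∀ i, IsAlgebraic O₀ (z i)) ∧ (∀ i, z i - zh i ∈ m ^ N) ∧
    ∀ g ∈ G, MvPolynomial.aeval z g ∈ Ideal.span {(MvPolynomial.aeval z δ) ^ 2} * m ^ N

/-- approximate solutions modulo `δ² m^N` exist near every exact solution with `δ ≠ 0` -/
def HProp (O₀ O : Type) [CommRing O₀] [CommRing O] [Algebra O₀ O] (m : Ideal O) : Prop :=
  ∀ (σ : Type) [Finite σ] (G : Set (MvPolynomial σ O₀)), G.Finite →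
    ∀ (δ : MvPolynomial σ O₀) (zh : σ → O),
    (∀ g ∈ G, MvPolynomial.aeval zh g = 0) → MvPolynomial.aeval zh δ ≠ 0 →
    ∀ N : ℕ, HInst O₀ O m σ G δ zh N

/-- the same for `R₀[X] → R⟦X⟧`, restricted to `δ(zh)` regular in `X` -/
def HRegProp (R₀ R : Type) [CommRing R₀] [CommRing R] [Algebra R₀ R] [IsLocalRing R] : Prop :=
  ∀ (σ : Type) [Finite σ] (G : Set (MvPolynomial σ R₀[X])), G.Finite →
    ∀ (δ : MvPolynomial σ R₀[X]) (zh : σ → R⟦X⟧),
    (∀ g ∈ G, MvPolynomial.aeval zh g = 0) →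
    (MvPolynomial.aeval zh δ : R⟦X⟧).map (IsLocalRing.residue R) ≠ 0 →
    ∀ N : ℕ, HInst R₀[X] R⟦X⟧ (IsLocalRing.maximalIdeal R⟦X⟧) σ G δ zh N

end Claimed.Agent.R246.AA
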