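import Claimed.Agent.R246.AA.Basic

/-! Row 246, Artin approximation, M1a: primitive element with cleared denominators. -/

set_option autoImplicit false

namespace Claimed.Agent.R246.AA

open Polynomial

/-- clearing denominators of a polynomial over the fraction field -/
theorem pe_clear {Λ K : Type} [CommRing Λ] [IsDomain Λ] [Field K] [Algebra Λ K] [IsFractionRing Λ K]
    (p : K[X]) : ∃ (b : Λ) (q : Λ[X]), b ≠ 0 ∧ q.map (algebraMap Λ K) = C (algebraMap Λ K b) * p := by
  obtain ⟨b, hb, h⟩ := IsLocalization.integerNormalization_spec (nonZeroDivisors Λ) p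
  refine ⟨b, IsLocalization.integerNormalization (nonZeroDivisors Λ) p,
    nonZeroDivisors.ne_zero hb, ?_⟩
  rw [h, Polynomial.C_mul', algebraMap_smul]

/-- the version of `primitive_element_cleared` with given fraction fields -/
theorem pe_aux {Λ O K Ω : Type} [CommRing Λ] [IsDomain Λ] [CommRing O] [IsDomain O]
    [Field K] [CharZero K] [Field Ω] [Algebra Λ K] [IsFractionRing Λ K] [Algebra O Ω]
    [IsFractionRing O Ω] [Algebra K Ω] (φ : Λ →+* O)
    (hc : ∀ a : Λ, algebraMap K Ω (algebraMap Λ K a) = algebraMap O Ω (φ a))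
    (σ : Type) [Fintype σ] (yh : σ → O)
    (halg : ∀ j, ∃ q : Λ[X], q ≠ 0 ∧ q.eval₂ φ (yh j) = 0) :
    ∃ (θh : O) (P : Λ[X]) (Δ : Λ) (R : σ → Λ[X]),
      P.eval₂ φ θh = 0 ∧ P.derivative.eval₂ φ θh ≠ 0 ∧ Δ ≠ 0 ∧
      (∀ j, φ Δ * yh j = (R j).eval₂ φ θh) ∧
      ∀ g : Λ[X], g.eval₂ φ θh = 0 → ∃ (E : Λ) (H : Λ[X]), E ≠ 0 ∧ C E * g = H * P := by
  classical
  have hinjK : Function.Injective (algebraMap Λ K) := IsFractionRing.injective Λ K
  have hinjO : Function.Injective (algebraMap O Ω) := IsFractionRing.injective O Ω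
  have hev : ∀ (q : Λ[X]) (t : O), algebraMap O Ω (q.eval₂ φ t) =
      aeval (algebraMap O Ω t) (q.map (algebraMap Λ K)) := by
    intro q t
    rw [Polynomial.hom_eval₂, aeval_def, eval₂_map]
    congr 1
    ext a
    simp [hc]
  set y : σ → Ω := fun j => algebraMap O Ω (yh j) with hy
  have hyalg : ∀ j, IsAlgebraic K (y j) := by
    intro j
    obtain ⟨q, hq0, hq⟩ := halg j
    refine ⟨q.map (algebraMap Λ K), (Polynomial.map_ne_zero_iff hinjK).2 hq0, ?_⟩
    rw [hy, ← hev, hq, map_zero]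
  have hSalg : ∀ x ∈ Set.range y, IsAlgebraic K x := by
    rintro _ ⟨j, rfl⟩
    exact hyalg j
  let M := IntermediateField.adjoin K (Set.range y)
  have : FiniteDimensional K M :=
    IntermediateField.finiteDimensional_adjoin (fun x hx => (hSalg x hx).isIntegral)
  obtain ⟨α, hα⟩ := Field.exists_primitive_element K M
  -- every element of `M` is a polynomial in `α`
  have hpol : ∀ x : M, ∃ r : K[X], aeval (α : Ω) r = (x : Ω) := by
    intro x
    have hx : x ∈ (IntermediateField.adjoin K {α}).toSubalgebra := by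
      rw [hα]; trivial
    rw [IntermediateField.adjoin_simple_toSubalgebra_of_isAlgebraic
      (Algebra.IsAlgebraic.isAlgebraic α), Algebra.adjoin_singleton_eq_range_aeval] at hx
    obtain ⟨r, hr⟩ := hx
    refine ⟨r, ?_⟩
    rw [IntermediateField.aeval_coe]
    exact congrArg _ hr
  -- denominators
  have hden : ∀ x ∈ Algebra.adjoin K (Set.range y), ∃ (c : Λ) (o : O), c ≠ 0 ∧
      algebraMap K Ω (algebraMap Λ K c) * x = algebraMap O Ω o := by
    intro x hx
    induction hx using Algebra.adjoin_induction with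
    | mem x hx =>
      obtain ⟨j, rfl⟩ := hx
      exact ⟨1, yh j, one_ne_zero, by simp [hy]⟩
    | algebraMap k =>
      obtain ⟨a, s, hs, rfl⟩ := IsFractionRing.div_surjective (A := Λ) k
      have hs0 : algebraMap Λ K s ≠ 0 := by
        simpa using nonZeroDivisors.ne_zero hs
      refine ⟨s, φ a, nonZeroDivisors.ne_zero hs, ?_⟩
      rw [← map_mul, mul_div_cancel₀ _ hs0, hc]
    | add x1 x2 _ _ h1 h2 =>
      obtain ⟨c1, o1, hc1, e1⟩ := h1
      obtain ⟨c2, o2, hc2, e2⟩ := h2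
      refine ⟨c1 * c2, φ c2 * o1 + φ c1 * o2, mul_ne_zero hc1 hc2, ?_⟩
      simp only [map_mul, map_add, ← e1, ← e2, ← hc]
      ring
    | mul x1 x2 _ _ h1 h2 =>
      obtain ⟨c1, o1, hc1, e1⟩ := h1
      obtain ⟨c2, o2, hc2, e2⟩ := h2
      refine ⟨c1 * c2, o1 * o2, mul_ne_zero hc1 hc2, ?_⟩
      simp only [map_mul, ← e1, ← e2]
      ring
  have hαmem : (α : Ω) ∈ Algebra.adjoin K (Set.range y) := by
    rw [← IntermediateField.adjoin_toSubalgebra_of_isAlgebraic hSalg]
    exact α.2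
  obtain ⟨c, θh, hc0, hθ⟩ := hden _ hαmem
  set c' : K := algebraMap Λ K c with hc'
  have hc'0 : c' ≠ 0 := by
    rw [hc']; simpa using hc0
  set θ : Ω := algebraMap O Ω θh with hθdef
  have hαint : IsIntegral K (α : Ω) := by
    have := Algebra.IsIntegral.isIntegral (R := K) α
    exact (IntermediateField.isIntegral_iff).1 this
  have hθint : IsIntegral K θ := by
    rw [← hθ]
    exact isIntegral_algebraMap.mul hαint
  have hpolθ : ∀ x : M, ∃ r : K[X], aeval θ r = (x : Ω) := by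
    intro x
    obtain ⟨r, hr⟩ := hpol x
    refine ⟨r.comp (C c'⁻¹ * X), ?_⟩
    rw [aeval_comp, ← hr]
    congr 1
    rw [map_mul, aeval_C, aeval_X, ← hθ, ← mul_assoc, ← map_mul, inv_mul_cancel₀ hc'0, map_one,
      one_mul]
  -- the minimal polynomial
  set m := minpoly K θ with hm
  have hmsep : m.Separable := (minpoly.irreducible hθint).separable
  obtain ⟨b, P, hb0, hP⟩ := pe_clear (Λ := Λ) m
  have hb0' : algebraMap K Ω (algebraMap Λ K b) ≠ 0 := by
    simpa using hb0
  -- the coordinates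
  have hcoord : ∀ j, ∃ (d : Λ) (R : Λ[X]), d ≠ 0 ∧ φ d * yh j = R.eval₂ φ θh := by
    intro j
    have hyM : y j ∈ M := IntermediateField.subset_adjoin K _ ⟨j, rfl⟩
    obtain ⟨r, hr⟩ := hpolθ ⟨y j, hyM⟩
    obtain ⟨d, R, hd0, hR⟩ := pe_clear (Λ := Λ) r
    refine ⟨d, R, hd0, hinjO ?_⟩
    rw [hev, hR, map_mul, map_mul, aeval_C, hr, hc]
  choose d R hd0 hR using hcoord
  refine ⟨θh, P, ∏ j, d j, fun j => C (∏ i ∈ Finset.univ.erase j, d i) * R j, ?_, ?_, ?_, ?_, ?_⟩
  · apply hinjO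
    rw [hev, hP, map_mul, map_zero, hm, minpoly.aeval, mul_zero]
  · intro h
    have h2 := congrArg (algebraMap O Ω) h
    rw [hev, map_zero, ← Polynomial.derivative_map, hP, Polynomial.derivative_C_mul, map_mul,
      aeval_C] at h2
    rcases mul_eq_zero.1 h2 with h3 | h3
    · exact hb0' h3
    · exact hmsep.aeval_derivative_ne_zero (minpoly.aeval K θ) h3
  · exact Finset.prod_ne_zero_iff.2 (fun j _ => hd0 j)
  · intro j
    rw [eval₂_mul, eval₂_C, ← hR j, ← mul_assoc, ← map_mul,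
      Finset.prod_erase_mul _ _ (Finset.mem_univ j)]
  · intro g hg
    have h1 : aeval θ (g.map (algebraMap Λ K)) = 0 := by
      rw [hθdef, ← hev, hg, map_zero]
    obtain ⟨h, hh⟩ := minpoly.dvd K θ h1
    obtain ⟨e, H, he0, hH⟩ := pe_clear (Λ := Λ) h
    refine ⟨b * e, H, mul_ne_zero hb0 he0, ?_⟩
    apply Polynomial.map_injective _ hinjK
    rw [Polynomial.map_mul, Polynomial.map_mul, hH, hP, hh, Polynomial.map_C, map_mul, C_mul]
    ring

/-- `Λ ⊆ O` domains of characteristic 0, `yh j ∈ O` algebraic over `Λ`.  Then there are `θh ∈ O`, `P ∈ Λ[X]`,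
`0 ≠ Δ ∈ Λ`, `R j ∈ Λ[X]` with `P(θh) = 0`, `P'(θh) ≠ 0`, `Δ yh_j = R_j(θh)`, and every `g ∈ Λ[X]` vanishing at `θh`
is a multiple of `P` up to a nonzero constant of `Λ`.

Proof: `K = Frac Λ ⊆ Ω = Frac O`; `M = K(yh)` is finite separable, so `M = K(α)` (`Field.exists_primitive_element`);
`α` is a polynomial in the `yh j` with coefficients in `K`; multiply by a common denominator `c ∈ Λ`: `θh = c α ∈ O` is
still primitive.  `P` = `minpoly K θh` with cleared denominators; `yh j ∈ K[θh]`, clear denominators;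
`g(θh) = 0` gives `minpoly ∣ g`, clear denominators. -/
theorem primitive_element_cleared {Λ O : Type} [CommRing Λ] [IsDomain Λ] [CharZero Λ]
    [CommRing O] [IsDomain O] (φ : Λ →+* O) (hφ : Function.Injective φ)
    (σ : Type) [Finite σ] (yh : σ → O)
    (halg : ∀ j, ∃ q : Λ[X], q ≠ 0 ∧ q.eval₂ φ (yh j) = 0) :
    ∃ (θh : O) (P : Λ[X]) (Δ : Λ) (R : σ → Λ[X]),
      P.eval₂ φ θh = 0 ∧ P.derivative.eval₂ φ θh ≠ 0 ∧ Δ ≠ 0 ∧
      (∀ j, φ Δ * yh j = (R j).eval₂ φ θh) ∧
      ∀ g : Λ[X], g.eval₂ φ θh = 0 → ∃ (E : Λ) (H : Λ[X]), E ≠ 0 ∧ C E * g = H * P := by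
  cases nonempty_fintype σ
  have hinj : Function.Injective ((algebraMap O (FractionRing O)).comp φ) :=
    (IsFractionRing.injective O (FractionRing O)).comp hφ
  let _ : Algebra (FractionRing Λ) (FractionRing O) :=
    (IsFractionRing.lift (K := FractionRing Λ) hinj).toAlgebra
  have : CharZero (FractionRing Λ) :=
    charZero_of_injective_algebraMap (IsFractionRing.injective Λ (FractionRing Λ))
  refine pe_aux (K := FractionRing Λ) (Ω := FractionRing O) φ ?_ σ yh halg
  intro a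
  exact IsFractionRing.lift_algebraMap hinj a

end Claimed.Agent.R246.AA
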